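import Mathlib
import Vale.Agent.P161.Tree
import Vale.Agent.P161.RegTree

/-!
A regular tree is distance transitive.
-/

namespace Vale.Agent.P161.Crit

open Finset

variable {V : Type*} {G : SimpleGraph V}

lemma exists_bij_two {A B : Finset V} (hcard : A.card = B.card) (c : A → B → Prop)
    (hfun : ∀ a b b', c a b → c a b' → b = b') (hinj : ∀ a a' b, c a b → c a' b → a = a')
    (hsmall : ∃ a₁ a₂ : Option A, ∀ a b, c a b → a₁ = some a ∨ a₂ = some a) :
    ∃ e : A ≃ B, ∀ a b, c a b → e a = b := by
  classical
  obtain ⟨a₁, a₂, ha⟩ := hsmall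
  have h0 : Nonempty (A ≃ B) := ⟨Finset.equivOfCardEq hcard⟩
  have step : ∀ (e : A ≃ B) (o : Option A), ∃ e' : A ≃ B,
      (∀ a b, c a b → e a = b → e' a = b) ∧ (∀ a b, o = some a → c a b → e' a = b) := by
    intro e o
    by_cases h : ∃ a b, o = some a ∧ c a b
    · obtain ⟨a, b, rfl, hab⟩ := h
      refine ⟨e.trans (Equiv.swap (e a) b), fun a' b' hc he ↦ ?_, fun a' b' ho hc ↦ ?_⟩
      · by_cases haa : a' = a
        · subst haa
          simp [hfun _ _ _ hc hab]
        · rw [Equiv.trans_apply, Equiv.swap_apply_of_ne_of_ne]
          · exact he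
          · exact fun h' ↦ haa (e.injective h')
          · intro h'
            rw [he] at h'
            subst h'
            exact haa (hinj _ _ _ hc hab)
      · obtain rfl := Option.some.inj ho
        simp [hfun _ _ _ hc hab]
    · push Not at h
      exact ⟨e, fun _ _ _ he ↦ he, fun a b ho hc ↦ absurd hc (h a b ho)⟩
  obtain ⟨e₀⟩ := h0
  obtain ⟨e₁, -, h1⟩ := step e₀ a₁
  obtain ⟨e₂, h2, h2'⟩ := step e₁ a₂
  refine ⟨e₂, fun a b hc ↦ ?_⟩
  rcases ha a b hc with h | h
  · exact h2 a b hc (h1 a b h hc)
  · exact h2' a b h hc

open Classical in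
/-- The neighbour of `x` that is closer to `o`. -/
noncomputable def par (G : SimpleGraph V) (o x : V) : V :=
  if h : ∃ y, G.Adj x y ∧ G.dist o y + 1 = G.dist o x then h.choose else x

lemma par_spec (hG : G.IsTree) {o x : V} (hx : x ≠ o) :
    G.Adj x (par G o x) ∧ G.dist o (par G o x) + 1 = G.dist o x := by
  classical
  have h := exists_closer hG hx
  rw [par, dif_pos h]
  exact h.choose_spec

lemma eq_par (hG : G.IsTree) {o x y : V} (h : G.Adj x y)
    (hy : G.dist o y + 1 = G.dist o x) : y = par G o x := by
  have hx : x ≠ o := by rintro rfl; simp at hy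
  exact closer_unique hG h hy (par_spec hG hx).1 (par_spec hG hx).2

/-- The vertex `x` lies on the geodesic from `o` to `v`. -/
def Between (G : SimpleGraph V) (o v x : V) : Prop := G.dist o x + G.dist x v = G.dist o v

lemma between_next (hG : G.IsTree) {o v x : V} (hb : Between G o v x) (hx : x ≠ v) :
    G.dist o (par G v x) = G.dist o x + 1 ∧ Between G o v (par G v x) := by
  have h := par_spec hG hx
  have h1 := hG.connected.dist_triangle (u := o) (v := par G v x) (w := v)
  have e1 := SimpleGraph.dist_comm (G := G) (u := par G v x) (v := v)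
  have e2 := SimpleGraph.dist_comm (G := G) (u := x) (v := v)
  unfold Between at *
  rcases adj_dist_cases hG (v := o) h.1 with h2 | h2 <;> omega

variable [DecidableEq V] [G.LocallyFinite]

/-- The requirements on the bijection between the neighbours of `x` and of `y`. -/
def Req (G : SimpleGraph V) (o v o' v' x y a b : V) : Prop :=
  (x ≠ o ∧ y ≠ o' ∧ a = par G o x ∧ b = par G o' y) ∨
    (Between G o v x ∧ Between G o' v' y ∧ x ≠ v ∧ y ≠ v' ∧ a = par G v x ∧ b = par G v' y)

lemma exists_local (hG : G.IsTree) {d : ℕ} (hreg : G.IsRegularOfDegree d) (o v o' v' x y : V) :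
    ∃ e : G.neighborFinset x ≃ G.neighborFinset y,
      ∀ a b, Req G o v o' v' x y a.1 b.1 → e a = b := by
  classical
  refine exists_bij_two ?_ (fun a b ↦ Req G o v o' v' x y a.1 b.1) ?_ ?_ ?_
  · simp [hreg.degree_eq]
  · intro a b b' h h'
    apply Subtype.ext
    rcases h with ⟨hx, -, ha, hb⟩ | ⟨hp, -, hx, -, ha, hb⟩ <;>
      rcases h' with ⟨hx', -, ha', hb'⟩ | ⟨hp', -, hx', -, ha', hb'⟩
    · rw [hb, hb']
    · have := (between_next hG hp' hx').1
      rw [← ha', ha] at this
      have := (par_spec hG hx).2
      omega
    · have := (between_next hG hp hx).1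
      rw [← ha, ha'] at this
      have := (par_spec hG hx').2
      omega
    · rw [hb, hb']
  · intro a a' b h h'
    apply Subtype.ext
    rcases h with ⟨-, hy, ha, hb⟩ | ⟨-, hp, -, hy, ha, hb⟩ <;>
      rcases h' with ⟨-, hy', ha', hb'⟩ | ⟨-, hp', -, hy', ha', hb'⟩
    · rw [ha, ha']
    · have := (between_next hG hp' hy').1
      rw [← hb', hb] at this
      have := (par_spec hG hy).2
      omega
    · have := (between_next hG hp hy).1
      rw [← hb, hb'] at this
      have := (par_spec hG hy').2
      omega
    · rw [ha, ha']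
  · refine ⟨if h : par G o x ∈ G.neighborFinset x then some ⟨_, h⟩ else none,
      if h : par G v x ∈ G.neighborFinset x then some ⟨_, h⟩ else none, fun a b h ↦ ?_⟩
    rcases h with ⟨-, -, ha, -⟩ | ⟨-, -, -, -, ha, -⟩
    · left; rw [dif_pos (ha ▸ a.2)]; exact congrArg some (Subtype.ext ha.symm)
    · right; rw [dif_pos (ha ▸ a.2)]; exact congrArg some (Subtype.ext ha.symm)

/-- Pairs of vertices at equal distance are related by an automorphism. -/
lemma exists_aut (hG : G.IsTree) {d : ℕ} (hreg : G.IsRegularOfDegree d) {o v o' v' : V}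
    (h : G.dist o v = G.dist o' v') : ∃ g : G ≃g G, g o = o' ∧ g v = v' := by
  classical
  choose e he using fun x y ↦ exists_local (G := G) hG hreg o v o' v' x y
  let E : V → V → V → V :=
    fun x y z ↦ if hz : z ∈ G.neighborFinset x then (e x y ⟨z, hz⟩).1 else z
  let F : ℕ → V → V := fun n ↦ Nat.rec (motive := fun _ ↦ V → V) (fun _ ↦ o')
    (fun _ r x ↦ E (par G o x) (r (par G o x)) x) n
  let f : V → V := fun x ↦ F (G.dist o x) x
  have hf0 : f o = o' := by simp [f, F]
  have hfs : ∀ x, x ≠ o → f x = E (par G o x) (f (par G o x)) x := by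
    intro x hx
    have := (par_spec hG hx).2
    simp only [f]
    rw [← this]
  have hEadj : ∀ x y z, G.Adj x z → G.Adj y (E x y z) := by
    intro x y z hz
    have hz' : z ∈ G.neighborFinset x := by simpa using hz
    simp only [E, dif_pos hz']
    exact (SimpleGraph.mem_neighborFinset _ _ _).1 (e x y ⟨z, hz'⟩).2
  have hEreq : ∀ x y a b, G.Adj x a → G.Adj y b → Req G o v o' v' x y a b → E x y a = b := by
    intro x y a b ha hb hr
    have ha' : a ∈ G.neighborFinset x := by simpa using ha
    simp only [E, dif_pos ha']
    exact congrArg Subtype.val (he x y ⟨a, ha'⟩ ⟨b, by simpa using hb⟩ hr)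
  have hEinj : ∀ x y a a', G.Adj x a → G.Adj x a' → E x y a = E x y a' → a = a' := by
    intro x y a a' ha ha' heq
    have h1 : a ∈ G.neighborFinset x := by simpa using ha
    have h2 : a' ∈ G.neighborFinset x := by simpa using ha'
    simp only [E, dif_pos h1, dif_pos h2] at heq
    exact congrArg Subtype.val ((e x y).injective (Subtype.ext heq))
  have hEsurj : ∀ x y b, G.Adj y b → ∃ a, G.Adj x a ∧ E x y a = b := by
    intro x y b hb
    obtain ⟨a, ha⟩ := (e x y).surjective ⟨b, by simpa using hb⟩
    refine ⟨a.1, (SimpleGraph.mem_neighborFinset _ _ _).1 a.2, ?_⟩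
    simp only [E, dif_pos a.2]
    exact congrArg Subtype.val ha
  -- the child of `x` is sent away from `o'`
  have hchild : ∀ x y z, G.dist o' y = G.dist o x → G.Adj x z →
      G.dist o z = G.dist o x + 1 → G.dist o' (E x y z) = G.dist o' y + 1 := by
    intro x y z hy hz hdz
    rcases adj_dist_cases hG (v := o') (hEadj x y z hz) with h1 | h1
    swap
    · exact h1
    exfalso
    have hy0 : y ≠ o' := by intro e'; subst e'; simp at h1
    have hx0 : x ≠ o := by
      intro e'
      rw [e', SimpleGraph.dist_self] at hy
      omega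
    have h2 := eq_par hG (o := o') (hEadj x y z hz) h1.symm
    have h3 := hEreq x y (par G o x) (par G o' y) (par_spec hG hx0).1 (par_spec hG hy0).1
      (Or.inl ⟨hx0, hy0, rfl, rfl⟩)
    have h4 := hEinj x y z (par G o x) hz (par_spec hG hx0).1 (h2.trans h3.symm)
    have := (par_spec hG hx0).2
    rw [← h4] at this
    omega
  have hdist : ∀ n x, G.dist o x = n → G.dist o' (f x) = n := by
    intro n
    induction n with
    | zero =>
      intro x hx
      obtain rfl : o = x := (hG.connected o x).dist_eq_zero_iff.mp hx
      simp [hf0]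
    | succ n ih =>
      intro x hx
      have hx0 : x ≠ o := by intro e'; subst e'; simp at hx
      obtain ⟨h1, h2⟩ := par_spec hG hx0
      have h3 := ih (par G o x) (by omega)
      rw [hfs x hx0, hchild _ _ _ (by omega) h1.symm (by omega)]
      omega
  have hadj : ∀ x, x ≠ o → G.Adj (f (par G o x)) (f x) := by
    intro x hx
    rw [hfs x hx]
    exact hEadj _ _ _ (par_spec hG hx).1.symm
  have hne : ∀ x, x ≠ o → f x ≠ o' := by
    intro x hx h'
    have := hdist _ x rfl
    rw [h', SimpleGraph.dist_self] at this
    exact hx ((hG.connected o x).dist_eq_zero_iff.mp this.symm).symm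
  have hparf : ∀ x, x ≠ o → par G o' (f x) = f (par G o x) := by
    intro x hx
    refine (eq_par hG (hadj x hx).symm ?_).symm
    rw [hdist _ _ rfl, hdist _ _ rfl]
    exact (par_spec hG hx).2
  have hinj : ∀ n x x', G.dist o x = n → f x = f x' → x = x' := by
    intro n
    induction n with
    | zero =>
      intro x x' hx heq
      obtain rfl : o = x := (hG.connected o x).dist_eq_zero_iff.mp hx
      by_contra hne'
      exact hne x' (Ne.symm hne') (heq ▸ hf0)
    | succ n ih =>
      intro x x' hx heq
      have hd' : G.dist o x' = n + 1 := by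
        rw [← hdist _ x' rfl, ← heq, hdist _ x rfl, hx]
      have hx0 : x ≠ o := by intro e'; subst e'; simp at hx
      have hx0' : x' ≠ o := by intro e'; subst e'; simp at hd'
      have hp : par G o x = par G o x' := by
        refine ih _ _ ?_ ?_
        · have := (par_spec hG hx0).2; omega
        · rw [← hparf x hx0, ← hparf x' hx0', heq]
      rw [hfs x hx0, hfs x' hx0', ← hp] at heq
      exact hEinj _ _ x x' (par_spec hG hx0).1.symm (hp ▸ (par_spec hG hx0').1.symm) heq
  have hsurj : ∀ n y, G.dist o' y = n → ∃ x, f x = y := by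
    intro n
    induction n with
    | zero =>
      intro y hy
      obtain rfl : o' = y := (hG.connected o' y).dist_eq_zero_iff.mp hy
      exact ⟨o, hf0⟩
    | succ n ih =>
      intro y hy
      have hy0 : y ≠ o' := by intro e'; subst e'; simp at hy
      obtain ⟨p, hp⟩ := ih (par G o' y) (by have := (par_spec hG hy0).2; omega)
      obtain ⟨a, ha, hEa⟩ := hEsurj p (f p) y (hp ▸ (par_spec hG hy0).1.symm)
      have hpd : G.dist o' (f p) = G.dist o p := hdist _ p rfl
      have hyd : G.dist o' (f p) + 1 = G.dist o' y := by rw [hp]; exact (par_spec hG hy0).2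
      rcases adj_dist_cases hG (v := o) ha with h1 | h1
      · exfalso
        have hp0 : p ≠ o := by intro e'; subst e'; simp at h1
        have h2 := eq_par hG (o := o) ha h1.symm
        have h3 := hEreq p (f p) (par G o p) (par G o' (f p)) (par_spec hG hp0).1
          (par_spec hG (hne p hp0)).1 (Or.inl ⟨hp0, hne p hp0, rfl, rfl⟩)
        rw [← h2, hEa] at h3
        have := (par_spec hG (hne p hp0)).2
        rw [← h3] at this
        omega
      · refine ⟨a, ?_⟩
        have ha0 : a ≠ o := by intro e'; subst e'; simp at h1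
        rw [hfs a ha0, ← eq_par hG (o := o) ha.symm h1.symm]
        exact hEa
  have hbij : Function.Bijective f :=
    ⟨fun x x' heq ↦ hinj _ x x' rfl heq, fun y ↦ hsurj _ y rfl⟩
  have hiff : ∀ x x', G.Adj (f x) (f x') ↔ G.Adj x x' := by
    intro x x'
    constructor
    · intro ha
      rcases adj_dist_cases hG (v := o') ha with h1 | h1
      · have hx0 : x ≠ o := by intro e'; subst e'; rw [hf0] at h1; simp at h1
        have h2 := eq_par hG (o := o') ha h1.symm
        rw [hparf x hx0] at h2
        exact hbij.1 h2 ▸ (par_spec hG hx0).1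
      · have hx0 : x' ≠ o := by intro e'; subst e'; rw [hf0] at h1; simp at h1
        have h2 := eq_par hG (o := o') ha.symm h1.symm
        rw [hparf x' hx0] at h2
        exact hbij.1 h2 ▸ (par_spec hG hx0).1.symm
    · intro ha
      rcases adj_dist_cases hG (v := o) ha with h1 | h1
      · have hx0 : x ≠ o := by intro e'; subst e'; simp at h1
        rw [eq_par hG (o := o) ha h1.symm]
        exact (hadj x hx0).symm
      · have hx0 : x' ≠ o := by intro e'; subst e'; simp at h1
        rw [eq_par hG (o := o) ha.symm h1.symm]
        exact hadj x' hx0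
  have hpath : ∀ n x, G.dist o x = n → Between G o v x → Between G o' v' (f x) := by
    intro n
    induction n with
    | zero =>
      intro x hx hb
      obtain rfl : o = x := (hG.connected o x).dist_eq_zero_iff.mp hx
      simp [Between, hf0]
    | succ n ih =>
      intro x hx hb
      have hx0 : x ≠ o := by intro e'; subst e'; simp at hx
      obtain ⟨h1, h2⟩ := par_spec hG hx0
      have t1 := hG.connected.dist_triangle (u := o) (v := par G o x) (w := v)
      have t2 := hG.connected.dist_triangle (u := par G o x) (v := x) (w := v)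
      have t3 : G.dist (par G o x) x = 1 := SimpleGraph.dist_eq_one_iff_adj.mpr h1.symm
      have hbp : Between G o v (par G o x) := by unfold Between at *; omega
      have hb' := ih _ (by omega) hbp
      have hv : par G o x ≠ v := by
        intro e'; unfold Between at hb; rw [e'] at h2; omega
      have hxn : x = par G v (par G o x) := by
        refine eq_par hG h1.symm ?_
        have c1 := SimpleGraph.dist_comm (G := G) (u := v) (v := x)
        have c2 := SimpleGraph.dist_comm (G := G) (u := v) (v := par G o x)
        unfold Between at hb hbp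
        omega
      have hv' : f (par G o x) ≠ v' := by
        intro e'
        have h3 := hdist _ (par G o x) rfl
        rw [e', ← h] at h3
        unfold Between at hb
        omega
      have key : f x = par G v' (f (par G o x)) := by
        rw [hfs x hx0]
        exact hEreq _ _ x _ h1.symm (par_spec hG hv').1
          (Or.inr ⟨hbp, hb', hv, hv', hxn, rfl⟩)
      rw [key]
      exact (between_next hG hb' hv').2
  let g : G ≃g G :=
    { toEquiv := Equiv.ofBijective f hbij
      map_rel_iff' := fun {a b} ↦ hiff a b }
  refine ⟨g, hf0, ?_⟩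
  have h1 := hpath _ v rfl (by simp [Between])
  have h2 := hdist _ v rfl
  unfold Between at h1
  exact (hG.connected (f v) v').dist_eq_zero_iff.mp (by omega)

end Vale.Agent.P161.Crit
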