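import Mathlib

/-!
Bootstrap near time zero and stepping afterwards for a monotone error function.
-/

namespace Vale.Agent.P161.Crit

open Filter
open scoped Topology

/-- The basic small scale attached to a time. -/
noncomputable def uu (t : ℝ) : ℝ := t ^ (32 : ℝ)⁻¹

lemma uu_nonneg {t : ℝ} (ht : 0 ≤ t) : 0 ≤ uu t := Real.rpow_nonneg ht _

lemma uu_le_one {t : ℝ} (ht : 0 ≤ t) (h1 : t ≤ 1) : uu t ≤ 1 :=
  Real.rpow_le_one ht h1 (by norm_num)

lemma uu_mul {a b : ℝ} (ha : 0 ≤ a) (hb : 0 ≤ b) : uu (a * b) = uu a * uu b :=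
  Real.mul_rpow ha hb

lemma uu_pow {t : ℝ} (ht : 0 ≤ t) (k : ℕ) : uu t ^ (32 * k) = t ^ k := by
  rw [pow_mul]
  congr 1
  rw [uu, ← Real.rpow_natCast, ← Real.rpow_mul ht]
  norm_num

lemma uu_natPow {t : ℝ} (ht : 0 ≤ t) (n : ℕ) : uu (t ^ n) = uu t ^ n := by
  induction n with
  | zero => simp [uu]
  | succ n ih => rw [pow_succ, uu_mul (pow_nonneg ht n) ht, ih, pow_succ]

/-- Bootstrap: a polynomial bound improves to every polynomial order. -/
lemma bootstrap {D : ℝ → ℝ} (hmono : ∀ s t, 0 < s → s ≤ t → D s ≤ D t)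
    (hnn : ∀ t, 0 < t → 0 ≤ D t) {C0 : ℝ} (h0 : ∀ t, 0 < t → t ≤ 1 → D t ≤ C0 * uu t ^ 12)
    (hstep : ∀ N : ℕ, ∃ C t1 : ℝ, 0 < t1 ∧ ∀ t, 0 < t → t ≤ t1 →
      D (2 * t) - D t ≤ C * uu t ^ 3 * D (2 * t) + C * uu t ^ N) :
    ∀ N : ℕ, ∃ C t1 : ℝ, 0 < t1 ∧ ∀ t, 0 < t → t ≤ t1 → D t ≤ C * uu t ^ N := by
  suffices main : ∀ j : ℕ, ∃ C t1 : ℝ, 0 ≤ C ∧ 0 < t1 ∧ t1 ≤ 1 ∧
      ∀ t, 0 < t → t ≤ t1 → D t ≤ C * uu t ^ (12 + 3 * j) by
    intro N
    obtain ⟨C, t1, hC, ht1, ht11, hb⟩ := main N
    refine ⟨C, t1, ht1, fun t ht htt ↦ (hb t ht htt).trans (mul_le_mul_of_nonneg_left ?_ hC)⟩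
    exact pow_le_pow_of_le_one (uu_nonneg ht.le) (uu_le_one ht.le (htt.trans ht11)) (by omega)
  intro j
  induction j with
  | zero =>
    refine ⟨max C0 0, 1, le_max_right _ _, one_pos, le_rfl, fun t ht h1 ↦ (h0 t ht h1).trans ?_⟩
    exact mul_le_mul_of_nonneg_right (le_max_left _ _) (pow_nonneg (uu_nonneg ht.le) _)
  | succ j ih =>
    obtain ⟨C, t1, hC, ht1, ht11, hb⟩ := ih
    set M := 12 + 3 * j with hM
    obtain ⟨C', t2, ht2, hs⟩ := hstep (M + 3)
    set C'' := max C' 0
    have hC'' : 0 ≤ C'' := le_max_right _ _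
    set A := C'' * (C * uu 2 ^ M) + C'' with hA
    have h2nn : 0 ≤ uu 2 := uu_nonneg (by norm_num)
    have hA0 : 0 ≤ A := by positivity
    set ρ := uu (1 / 2) ^ (M + 3) with hρ
    have hρ0 : 0 ≤ ρ := pow_nonneg (uu_nonneg (by norm_num)) _
    have hρ1 : ρ < 1 := pow_lt_one₀ (uu_nonneg (by norm_num))
      (Real.rpow_lt_one (by norm_num) (by norm_num) (by norm_num)) (by omega)
    have hinc : ∀ t, 0 < t → t ≤ min (t1 / 2) t2 → D (2 * t) ≤ D t + A * uu t ^ (M + 3) := by
      intro t ht htt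
      have e1 : t ≤ t1 / 2 := htt.trans (min_le_left _ _)
      have u0 := uu_nonneg ht.le
      have d2 := hnn (2 * t) (by linarith)
      have hst := hs t ht (htt.trans (min_le_right _ _))
      have hb2 := hb (2 * t) (by linarith) (by linarith)
      rw [uu_mul (by norm_num) ht.le, mul_pow] at hb2
      have e2 : C' * uu t ^ 3 * D (2 * t) ≤ C'' * uu t ^ 3 * D (2 * t) :=
        mul_le_mul_of_nonneg_right
          (mul_le_mul_of_nonneg_right (le_max_left _ _) (pow_nonneg u0 _)) d2
      have e3 : C' * uu t ^ (M + 3) ≤ C'' * uu t ^ (M + 3) :=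
        mul_le_mul_of_nonneg_right (le_max_left _ _) (pow_nonneg u0 _)
      have e4 : C'' * uu t ^ 3 * D (2 * t) ≤ C'' * uu t ^ 3 * (C * (uu 2 ^ M * uu t ^ M)) :=
        mul_le_mul_of_nonneg_left hb2 (by positivity)
      calc D (2 * t) ≤ D t + (C'' * uu t ^ 3 * (C * (uu 2 ^ M * uu t ^ M)) +
            C'' * uu t ^ (M + 3)) := by linarith
        _ = _ := by rw [hA, pow_add]; ring
    refine ⟨A / (1 - ρ), min t1 t2, div_nonneg hA0 (by linarith), lt_min ht1 ht2,
      (min_le_left _ _).trans ht11, fun t ht htt ↦ ?_⟩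
    have htt1 : t ≤ t1 := htt.trans (min_le_left _ _)
    have htt2 : t ≤ t2 := htt.trans (min_le_right _ _)
    rw [show 12 + 3 * (j + 1) = M + 3 by omega]
    have u0 := uu_nonneg ht.le
    have hiter : ∀ n : ℕ, D t ≤ D (t * (1 / 2) ^ n) +
        A * uu t ^ (M + 3) * ((1 - ρ ^ n) / (1 - ρ)) := by
      intro n
      induction n with
      | zero => simp
      | succ n ihn =>
        set w := t * (1 / 2 : ℝ) ^ (n + 1) with hw
        have hw0 : 0 < w := by positivity
        have hp : (1 / 2 : ℝ) ^ (n + 1) ≤ 1 / 2 := by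
          calc (1 / 2 : ℝ) ^ (n + 1) ≤ (1 / 2 : ℝ) ^ 1 :=
                pow_le_pow_of_le_one (by norm_num) (by norm_num) (by omega)
            _ = 1 / 2 := pow_one _
        have hwt : w ≤ t / 2 := by
          rw [hw]; calc t * (1 / 2 : ℝ) ^ (n + 1) ≤ t * (1 / 2) :=
                mul_le_mul_of_nonneg_left hp ht.le
            _ = t / 2 := by ring
        have h := hinc w hw0 (le_min (by linarith) (by linarith))
        have e : 2 * w = t * (1 / 2) ^ n := by rw [hw, pow_succ]; ring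
        rw [e] at h
        have hu : uu w ^ (M + 3) ≤ uu t ^ (M + 3) * ρ ^ n := by
          have hwle : w ≤ t * (1 / 2) ^ n := by linarith
          have : uu w ≤ uu t * uu (1 / 2) ^ n := by
            calc uu w ≤ uu (t * (1 / 2) ^ n) := Real.rpow_le_rpow hw0.le hwle (by norm_num)
              _ = uu t * uu ((1 / 2) ^ n) := uu_mul ht.le (by positivity)
              _ = _ := by rw [uu_natPow (by norm_num : (0 : ℝ) ≤ 1 / 2)]
          calc uu w ^ (M + 3) ≤ (uu t * uu (1 / 2) ^ n) ^ (M + 3) :=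
                pow_le_pow_left₀ (uu_nonneg hw0.le) this _
            _ = _ := by rw [hρ, mul_pow, ← pow_mul, ← pow_mul, mul_comm n]
        have h' : A * uu w ^ (M + 3) ≤ A * (uu t ^ (M + 3) * ρ ^ n) :=
          mul_le_mul_of_nonneg_left hu hA0
        have hid : A * uu t ^ (M + 3) * ((1 - ρ ^ (n + 1)) / (1 - ρ)) =
            A * uu t ^ (M + 3) * ((1 - ρ ^ n) / (1 - ρ)) + A * (uu t ^ (M + 3) * ρ ^ n) := by
          have : (1 : ℝ) - ρ ≠ 0 := by linarith
          rw [pow_succ]
          field_simp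
          ring
        rw [hid]
        linarith
    have hlim : Tendsto (fun n : ℕ ↦ C * uu (t * (1 / 2) ^ n) ^ M + A * uu t ^ (M + 3) / (1 - ρ))
        atTop (𝓝 (0 + A * uu t ^ (M + 3) / (1 - ρ))) := by
      refine Tendsto.add_const _ ?_
      have h1 : Tendsto (fun n : ℕ ↦ t * (1 / 2 : ℝ) ^ n) atTop (𝓝 0) := by
        simpa using (tendsto_pow_atTop_nhds_zero_of_lt_one (by norm_num : (0 : ℝ) ≤ 1 / 2)
          (by norm_num)).const_mul t
      have h2 : Tendsto uu (𝓝 0) (𝓝 0) := by
        have := (Real.continuous_rpow_const (q := (32 : ℝ)⁻¹) (by norm_num)).tendsto 0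
        rwa [Real.zero_rpow (by norm_num)] at this
      simpa [zero_pow (show M ≠ 0 by omega)] using ((h2.comp h1).pow M).const_mul C
    have hle : ∀ n : ℕ, D t ≤ C * uu (t * (1 / 2) ^ n) ^ M + A * uu t ^ (M + 3) / (1 - ρ) := by
      intro n
      have hp : (0 : ℝ) < t * (1 / 2) ^ n := by positivity
      have hpt : t * (1 / 2 : ℝ) ^ n ≤ t :=
        mul_le_of_le_one_right ht.le (pow_le_one₀ (by norm_num) (by norm_num))
      refine (hiter n).trans (add_le_add (hb _ hp (hpt.trans htt1)) ?_)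
      rw [show A * uu t ^ (M + 3) / (1 - ρ) = A * uu t ^ (M + 3) * (1 / (1 - ρ)) by ring]
      refine mul_le_mul_of_nonneg_left ?_ (mul_nonneg hA0 (pow_nonneg u0 _))
      exact (div_le_div_iff_of_pos_right (by linarith)).2 (by linarith [pow_nonneg hρ0 n])
    have := ge_of_tendsto' hlim hle
    rw [zero_add] at this
    rw [div_mul_eq_mul_div]
    exact this

/-- Stepping: super-polynomial smallness at zero propagates to identically zero. -/
lemma vanish {D : ℝ → ℝ} (hmono : ∀ s t, 0 < s → s ≤ t → D s ≤ D t)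
    (hnn : ∀ t, 0 < t → 0 ≤ D t)
    (hgerm : ∀ N : ℕ, ∃ C t1 : ℝ, 0 < t1 ∧ ∀ t, 0 < t → t ≤ t1 → D t ≤ C * uu t ^ N)
    {b : ℕ} (hb : 2 ≤ b) {c K P c0 T : ℝ} {m : ℕ} (hc : 0 ≤ c) (hK : 0 ≤ K) (hP : 0 ≤ P)
    (hc0 : 0 < c0) (hT : 0 < T)
    (hstep : ∀ (l : ℕ) (s t : ℝ), 0 < s → s ≤ t → t ≤ 2 * s → t ≤ T →
      D t - D s ≤ (t - s) * ((c / s + K * (l + 1 : ℝ) ^ 2) * D t +
        P * (1 + 1 / s) ^ m * Real.exp (-(c0 * (b : ℝ) ^ l)))) :
    D T = 0 := by
  set A := ⌈2 * c + 2 + 8 * (K * T)⌉₊ with hA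
  have hA' : 2 * c + 2 + 8 * (K * T) ≤ (A : ℝ) := Nat.le_ceil _
  obtain ⟨C, t1, ht1, hg⟩ := hgerm (32 * (A + 1))
  let E : ℕ → ℝ := fun l ↦
    P * (1 + 2 ^ (l ^ 2) / T) ^ m * Real.exp (-(c0 * (b : ℝ) ^ l))
  -- the error after all steps
  have main : ∀ l : ℕ, 1 ≤ l → T / 2 ^ (l ^ 2) ≤ t1 →
      D T ≤ 2 ^ (A * l ^ 2) * (C * (T / 2 ^ (l ^ 2)) ^ (A + 1) + T * E l) := by
    intro l hl hsmall
    set q := l ^ 2 with hq
    set s0 := T / 2 ^ q with hs0
    have hs0pos : 0 < s0 := by positivity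
    have hE0 : 0 ≤ E l := by positivity
    set L := ((l : ℝ) + 1) ^ 2 with hL
    have hL0 : 0 ≤ L := by positivity
    have dyad : ∀ i ≤ q, ∃ M : ℕ,
        (M : ℝ) ≤ i * (2 * c + 2) + 2 * K * L * (s0 * 2 ^ i) ∧
        D (s0 * 2 ^ i) ≤ 2 ^ M * (D s0 + s0 * 2 ^ i * E l) := by
      intro i
      induction i with
      | zero =>
        intro _
        refine ⟨0, by simp; positivity, ?_⟩
        simp only [pow_zero, one_mul, mul_one, le_add_iff_nonneg_right]
        positivity
      | succ i ih =>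
        intro hi
        obtain ⟨M, hM, hD⟩ := ih (by omega)
        set s := s0 * 2 ^ i with hs
        have hspos : 0 < s := by positivity
        have hs0s : s0 ≤ s := le_mul_of_one_le_right hs0pos.le (one_le_pow₀ (by norm_num))
        have h2sT : 2 * s ≤ T := by
          have e : T = s0 * 2 ^ q := by rw [hs0]; field_simp
          rw [hs, e]
          calc 2 * (s0 * 2 ^ i) = s0 * 2 ^ (i + 1) := by ring
            _ ≤ _ := mul_le_mul_of_nonneg_left (pow_le_pow_right₀ (by norm_num) hi) hs0pos.le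
        set n := ⌈2 * c + 2 * K * L * s⌉₊ + 1 with hn
        have hn1 : (2 * c + 2 * K * L * s) ≤ (n : ℝ) := by
          have h := Nat.le_ceil (2 * c + 2 * K * L * s)
          rw [hn]; push_cast; linarith
        have hn2 : (n : ℝ) ≤ 2 * c + 2 * K * L * s + 2 := by
          have := Nat.ceil_lt_add_one (a := 2 * c + 2 * K * L * s) (by positivity)
          rw [hn]; push_cast; linarith
        have hnpos : (0 : ℝ) < n := by
          rw [hn]; positivity
        set h := s / n with hh
        have hhpos : 0 < h := by positivity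
        have steps : ∀ j ≤ n, D (s + j * h) ≤ 2 ^ j * (D s + j * h * E l) := by
          intro j
          induction j with
          | zero => intro _; simp
          | succ j ihj =>
            intro hj
            have ihj' := ihj (by omega)
            set a := s + j * h with ha
            have hjn : (j : ℝ) + 1 ≤ n := by exact_mod_cast hj
            have hap : 0 < a := by positivity
            have has : s ≤ a := le_add_of_nonneg_right (by positivity)
            have hnh : (n : ℝ) * h = s := by rw [hh]; field_simp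
            have hah : a + h ≤ 2 * s := by
              have : ((j : ℝ) + 1) * h ≤ n * h := mul_le_mul_of_nonneg_right hjn hhpos.le
              rw [ha]; linarith
            have hst := hstep l a (a + h) hap (by linarith) (by linarith) (by linarith)
            rw [add_sub_cancel_left, ← hL] at hst
            have hd := hnn (a + h) (by linarith)
            have hcoef : h * (c / a + K * L) ≤ 1 / 2 := by
              have h1 : c / a ≤ c / s := div_le_div_of_nonneg_left hc hspos has
              have h2 : h * (c / s + K * L) = (c + K * L * s) / n := by rw [hh]; field_simp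
              calc h * (c / a + K * L) ≤ h * (c / s + K * L) :=
                    mul_le_mul_of_nonneg_left (by linarith) hhpos.le
                _ ≤ 1 / 2 := by rw [h2, div_le_iff₀ hnpos]; linarith
            have herr : P * (1 + 1 / a) ^ m * Real.exp (-(c0 * (b : ℝ) ^ l)) ≤ E l := by
              refine mul_le_mul_of_nonneg_right (mul_le_mul_of_nonneg_left
                (pow_le_pow_left₀ (by positivity) ?_ _) hP) (Real.exp_pos _).le
              have : 1 / a ≤ 1 / s0 := one_div_le_one_div_of_le hs0pos (hs0s.trans has)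
              rw [hs0, one_div_div] at this
              linarith
            have e1 : h * ((c / a + K * L) * D (a + h)) ≤ 1 / 2 * D (a + h) := by
              rw [← mul_assoc]; exact mul_le_mul_of_nonneg_right hcoef hd
            have e2 := mul_le_mul_of_nonneg_left herr hhpos.le
            have h3 : D (a + h) ≤ 2 * (D a + h * E l) := by
              rw [mul_add] at hst; linarith
            have e3 : s + ((j + 1 : ℕ) : ℝ) * h = a + h := by rw [ha]; push_cast; ring
            rw [e3]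
            have h2j : (1 : ℝ) ≤ 2 ^ j := one_le_pow₀ (by norm_num)
            have hhE : h * E l ≤ 2 ^ j * (h * E l) := le_mul_of_one_le_left (by positivity) h2j
            refine h3.trans ?_
            push_cast
            rw [pow_succ]
            linarith
        have hfin := steps n le_rfl
        have hnh : (n : ℝ) * h = s := by rw [hh]; field_simp
        rw [hnh] at hfin
        refine ⟨M + n, ?_, ?_⟩
        · push_cast
          rw [pow_succ, ← mul_assoc s0, ← hs]
          linarith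
        · rw [pow_succ, ← mul_assoc s0, ← hs, mul_comm s 2]
          have h2M : (1 : ℝ) ≤ 2 ^ M := one_le_pow₀ (by norm_num)
          have e : s + s = 2 * s := by ring
          calc D (2 * s) = D (s + s) := by rw [e]
            _ ≤ 2 ^ n * (D s + s * E l) := hfin
            _ ≤ 2 ^ n * (2 ^ M * (D s0 + s * E l) + 2 ^ M * (s * E l)) :=
                mul_le_mul_of_nonneg_left
                  (add_le_add hD (le_mul_of_one_le_left (by positivity) h2M)) (by positivity)
            _ = _ := by rw [pow_add]; ring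
    obtain ⟨M, hM, hD⟩ := dyad q le_rfl
    have eT : s0 * 2 ^ q = T := by rw [hs0]; field_simp
    rw [eT] at hD hM
    have hMA : M ≤ A * q := by
      have hl' : (1 : ℝ) ≤ l := by exact_mod_cast hl
      have hLq : L ≤ 4 * (q : ℝ) := by rw [hL, hq]; push_cast; nlinarith
      have h1 : 2 * K * L * T ≤ 2 * K * (4 * (q : ℝ)) * T :=
        mul_le_mul_of_nonneg_right (mul_le_mul_of_nonneg_left hLq (by positivity)) hT.le
      have h2 : (M : ℝ) ≤ ((A * q : ℕ) : ℝ) := by
        push_cast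
        have := mul_le_mul_of_nonneg_right hA' (Nat.cast_nonneg q (α := ℝ))
        linarith
      exact_mod_cast h2
    refine hD.trans ?_
    refine mul_le_mul (pow_le_pow_right₀ (by norm_num) hMA) ?_ (by
      have := hnn s0 hs0pos
      positivity) (by positivity)
    have := hg s0 hs0pos hsmall
    rw [uu_pow hs0pos.le] at this
    linarith
  -- the error tends to zero
  have hq_top : Tendsto (fun l : ℕ ↦ l ^ 2) atTop atTop := tendsto_pow_atTop (by norm_num)
  have hhalf : Tendsto (fun l : ℕ ↦ (1 / 2 : ℝ) ^ (l ^ 2)) atTop (𝓝 0) :=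
    (tendsto_pow_atTop_nhds_zero_of_lt_one (by norm_num) (by norm_num)).comp hq_top
  have hev1 : ∀ᶠ l : ℕ in atTop, T / 2 ^ (l ^ 2) ≤ t1 := by
    have h := hhalf.const_mul T
    rw [mul_zero] at h
    refine (h.eventually (eventually_le_nhds ht1)).mono fun l hl ↦ ?_
    rwa [one_div_pow, mul_one_div] at hl
  have hfirst : Tendsto (fun l : ℕ ↦ C * T ^ (A + 1) * (1 / 2 : ℝ) ^ (l ^ 2)) atTop (𝓝 0) := by
    simpa using hhalf.const_mul (C * T ^ (A + 1))
  have hsecond : Tendsto
      (fun l : ℕ ↦ T * P * (1 + 1 / T) ^ m * Real.exp (-(c0 / 2) * (2 : ℝ) ^ l))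
      atTop (𝓝 0) := by
    have h1 : Tendsto (fun l : ℕ ↦ -(c0 / 2) * (2 : ℝ) ^ l) atTop atBot :=
      Tendsto.const_mul_atTop_of_neg (by linarith) (tendsto_pow_atTop_atTop_of_one_lt (by norm_num))
    simpa using (Real.tendsto_exp_atBot.comp h1).const_mul (T * P * (1 + 1 / T) ^ m)
  have hev2 : ∀ᶠ l : ℕ in atTop, ((A + m : ℕ) : ℝ) * l ^ 2 * Real.log 2 ≤ c0 / 2 * 2 ^ l := by
    have h := (tendsto_pow_const_div_const_pow_of_one_lt 2 (one_lt_two : (1 : ℝ) < 2)).const_mul
      (((A + m : ℕ) : ℝ) * Real.log 2)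
    rw [mul_zero] at h
    refine (h.eventually (eventually_le_nhds (half_pos hc0))).mono fun l hl ↦ ?_
    rw [← mul_div_assoc, div_le_iff₀ (by positivity)] at hl
    linarith
  have hle : ∀ᶠ l : ℕ in atTop, D T ≤ C * T ^ (A + 1) * (1 / 2) ^ (l ^ 2) +
      T * P * (1 + 1 / T) ^ m * Real.exp (-(c0 / 2) * 2 ^ l) := by
    filter_upwards [hev1, hev2, eventually_ge_atTop 1] with l h1 h2 h3
    refine (main l h3 h1).trans ?_
    set q := l ^ 2 with hq
    have e1 : (2 : ℝ) ^ (A * q) * (C * (T / 2 ^ q) ^ (A + 1)) =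
        C * T ^ (A + 1) * (1 / 2) ^ q := by
      rw [div_pow, one_div_pow, pow_mul', ← pow_mul, pow_succ]
      have h4 : ((2 : ℝ) ^ q) ^ A ≠ 0 := by positivity
      have h5 : (2 : ℝ) ^ q ≠ 0 := by positivity
      field_simp
      simp only [← pow_mul, ← pow_add]
      ring
    have hq1 : (1 : ℝ) ≤ 2 ^ q := one_le_pow₀ (by norm_num)
    have e2 : (1 + 2 ^ q / T) ^ m ≤ (1 + 1 / T) ^ m * 2 ^ (m * q) := by
      rw [pow_mul', ← mul_pow]
      refine pow_le_pow_left₀ (by positivity) ?_ _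
      rw [add_mul, one_mul, one_div_mul_eq_div]
      linarith
    have e3 : (2 : ℝ) ^ (A * q) * 2 ^ (m * q) * Real.exp (-(c0 * (b : ℝ) ^ l)) ≤
        Real.exp (-(c0 / 2) * 2 ^ l) := by
      have hb2 : (2 : ℝ) ^ l ≤ (b : ℝ) ^ l :=
        pow_le_pow_left₀ (by norm_num) (by exact_mod_cast hb) _
      rw [← pow_add, ← Real.exp_log (show (0 : ℝ) < 2 by norm_num), ← Real.exp_nat_mul,
        ← Real.exp_add, Real.exp_log (show (0 : ℝ) < 2 by norm_num)]
      refine Real.exp_le_exp.2 ?_
      have h6 : c0 * 2 ^ l ≤ c0 * (b : ℝ) ^ l := mul_le_mul_of_nonneg_left hb2 hc0.le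
      have h7 : ((A * q + m * q : ℕ) : ℝ) * Real.log 2 =
          ((A + m : ℕ) : ℝ) * l ^ 2 * Real.log 2 := by rw [hq]; push_cast; ring
      rw [h7]
      linarith
    rw [mul_add, e1]
    refine add_le_add le_rfl ?_
    calc (2 : ℝ) ^ (A * q) * (T * E l)
        = T * P * (1 + 2 ^ q / T) ^ m * (2 ^ (A * q) * Real.exp (-(c0 * (b : ℝ) ^ l))) := by
          simp only [E, ← hq]; ring
      _ ≤ T * P * ((1 + 1 / T) ^ m * 2 ^ (m * q)) *
            (2 ^ (A * q) * Real.exp (-(c0 * (b : ℝ) ^ l))) :=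
          mul_le_mul_of_nonneg_right (mul_le_mul_of_nonneg_left e2 (by positivity)) (by positivity)
      _ = T * P * (1 + 1 / T) ^ m *
            (2 ^ (A * q) * 2 ^ (m * q) * Real.exp (-(c0 * (b : ℝ) ^ l))) := by ring
      _ ≤ _ := mul_le_mul_of_nonneg_left e3 (by positivity)
  have := ge_of_tendsto (hfirst.add hsecond) hle
  rw [add_zero] at this
  exact le_antisymm this (hnn T hT)

end Vale.Agent.P161.Crit
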