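import Mathlib

/-!
Exponential moments of sums of `[0,1]` variables with exponentially decaying means.
-/

namespace Vale.Agent.P161.Crit

open Finset MeasureTheory

/-- Pointwise bound of the exponential of a sum by a combination of its tails. -/
lemma exp_le_tails (a : ℕ → ℝ) (K L : ℕ) (hL : 0 < L) {x : ℝ} (hx : 0 ≤ x) (hxL : x * L ≤ 2)
    (h0 : ∀ k < K, 0 ≤ a k) (h1 : ∀ k < K, a k ≤ 1) :
    Real.exp (x / 8 * ∑ k ∈ range K, a k) ≤ Real.exp (1 / 2) +
      ∑ j ∈ Ioc 0 K, Real.exp (((j : ℝ) + 1) / 2) / ((L : ℝ) * j) *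
        ∑ k ∈ (range K).filter (fun k ↦ L * j ≤ k), a k := by
  set S := ∑ k ∈ range K, a k with hS
  have hS0 : 0 ≤ S := sum_nonneg fun k hk ↦ h0 k (mem_range.1 hk)
  have hSK : S ≤ K := by
    calc S ≤ ∑ _k ∈ range K, (1 : ℝ) := sum_le_sum fun k hk ↦ h1 k (mem_range.1 hk)
      _ = K := by simp
  have hLpos : (0 : ℝ) < L := Nat.cast_pos.2 hL
  set j := ⌊S / (2 * L)⌋₊ with hj
  have hjlo : (j : ℝ) * (2 * L) ≤ S :=
    (le_div_iff₀ (by positivity)).1 (Nat.floor_le (by positivity))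
  have hjhi : S ≤ ((j : ℝ) + 1) * (2 * L) :=
    ((div_lt_iff₀ (by positivity)).1 (Nat.lt_floor_add_one _)).le
  have hexp : Real.exp (x / 8 * S) ≤ Real.exp (((j : ℝ) + 1) / 2) := by
    refine Real.exp_le_exp.2 ?_
    have e1 : x / 8 * S ≤ x / 8 * (((j : ℝ) + 1) * (2 * L)) :=
      mul_le_mul_of_nonneg_left hjhi (by linarith)
    have e2 : x * L * ((j : ℝ) + 1) ≤ 2 * ((j : ℝ) + 1) :=
      mul_le_mul_of_nonneg_right hxL (by positivity)
    linarith
  have hterm : ∀ i ∈ Ioc 0 K, 0 ≤ Real.exp (((i : ℝ) + 1) / 2) / ((L : ℝ) * i) *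
      ∑ k ∈ (range K).filter (fun k ↦ L * i ≤ k), a k := fun i _ ↦
    mul_nonneg (by positivity)
      (sum_nonneg fun k hk ↦ h0 k (mem_range.1 (mem_filter.1 hk).1))
  rcases Nat.eq_zero_or_pos j with hj0 | hjpos
  · rw [hj0, Nat.cast_zero, zero_add] at hexp
    exact hexp.trans (le_add_of_nonneg_right (sum_nonneg hterm))
  have hjK : j ≤ K := by
    have h2 : (j : ℝ) ≤ K := by
      have : (1 : ℝ) ≤ L := by exact_mod_cast hL
      have h3 : (j : ℝ) * 1 ≤ j * (2 * L) :=
        mul_le_mul_of_nonneg_left (by linarith) (Nat.cast_nonneg j)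
      linarith
    exact_mod_cast h2
  have htail : (L : ℝ) * j ≤ ∑ k ∈ (range K).filter (fun k ↦ L * j ≤ k), a k := by
    have hsplit := sum_filter_add_sum_filter_not (range K) (fun k ↦ L * j ≤ k) a
    rw [← hS] at hsplit
    have hhead : ∑ k ∈ (range K).filter (fun k ↦ ¬L * j ≤ k), a k ≤ ((L * j : ℕ) : ℝ) := by
      calc _ ≤ ∑ _k ∈ (range K).filter (fun k ↦ ¬L * j ≤ k), (1 : ℝ) :=
            sum_le_sum fun k hk ↦ h1 k (mem_range.1 (mem_filter.1 hk).1)
        _ = (((range K).filter (fun k ↦ ¬L * j ≤ k)).card : ℝ) := by simp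
        _ ≤ ((L * j : ℕ) : ℝ) := by
          refine Nat.cast_le.2 ?_
          calc _ ≤ (range (L * j)).card := card_le_card fun k hk ↦
                mem_range.2 (not_le.1 (mem_filter.1 hk).2)
            _ = L * j := card_range _
    push_cast at hhead
    linarith
  refine hexp.trans (le_trans ?_ (le_add_of_nonneg_left (Real.exp_pos _).le))
  refine le_trans ?_ (single_le_sum hterm (mem_Ioc.2 ⟨hjpos, hjK⟩))
  rw [div_mul_eq_mul_div, le_div_iff₀ (mul_pos hLpos (Nat.cast_pos.2 hjpos))]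
  exact mul_le_mul_of_nonneg_left htail (Real.exp_pos _).le

universe u in
/-- If `X k ∈ [0,1]` and `E X k ≤ C e^{-xk}`, then `(x/8) Σ X k` has a bounded exponential
moment, uniformly in `x` and in the number of summands. -/
lemma exp_moment {C : ℝ} (hC : 0 ≤ C) :
    ∃ M : ℝ, ∀ {Ω : Type u} [MeasurableSpace Ω] (μ : Measure Ω) [IsProbabilityMeasure μ]
      (X : ℕ → Ω → ℝ) (K : ℕ) (x : ℝ), 0 < x → x ≤ 1 →
      (∀ k < K, Measurable (X k)) → (∀ k < K, ∀ ω, 0 ≤ X k ω ∧ X k ω ≤ 1) →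
      (∀ k < K, ∫ ω, X k ω ∂μ ≤ C * Real.exp (-(x * k))) →
      ∫ ω, Real.exp (x / 8 * ∑ k ∈ range K, X k ω) ∂μ ≤ M := by
  set ρ := Real.exp (-(1 / 2)) with hρ
  have hρ0 : 0 < ρ := Real.exp_pos _
  have hρ1 : ρ < 1 := Real.exp_lt_one_iff.2 (by norm_num)
  refine ⟨Real.exp (1 / 2) + 2 * C * Real.exp (1 / 2) * (1 / (1 - ρ)), ?_⟩
  intro Ω _ μ _ X K x hx hx1 hm hX hE
  set L := ⌈1 / x⌉₊ with hL
  have hLpos : 0 < L := Nat.ceil_pos.2 (by positivity)
  have hLlo : 1 ≤ x * L := by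
    have := Nat.le_ceil (1 / x)
    rw [div_le_iff₀ hx] at this
    linarith
  have hLhi : x * L ≤ 2 := by
    have h := Nat.ceil_lt_add_one (a := 1 / x) (by positivity)
    have h2 : x * L ≤ x * (1 / x + 1) := mul_le_mul_of_nonneg_left h.le hx.le
    have h3 : x * (1 / x + 1) = 1 + x := by field_simp
    linarith
  have hint : ∀ k < K, Integrable (X k) μ := fun k hk ↦
    Integrable.of_bound (hm k hk).aestronglyMeasurable 1
      (Filter.Eventually.of_forall fun ω ↦ by
        rw [Real.norm_eq_abs, abs_of_nonneg (hX k hk ω).1]; exact (hX k hk ω).2)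
  let R : Ω → ℝ := fun ω ↦ Real.exp (1 / 2) +
    ∑ j ∈ Ioc 0 K, Real.exp (((j : ℝ) + 1) / 2) / ((L : ℝ) * j) *
      ∑ k ∈ (range K).filter (fun k ↦ L * j ≤ k), X k ω
  have hpoint : ∀ ω, Real.exp (x / 8 * ∑ k ∈ range K, X k ω) ≤ R ω := fun ω ↦
    exp_le_tails (fun k ↦ X k ω) K L hLpos hx.le hLhi (fun k hk ↦ (hX k hk ω).1)
      (fun k hk ↦ (hX k hk ω).2)
  have hjint : ∀ j ∈ Ioc 0 K, Integrable (fun ω ↦ Real.exp (((j : ℝ) + 1) / 2) / ((L : ℝ) * j) *
      ∑ k ∈ (range K).filter (fun k ↦ L * j ≤ k), X k ω) μ := fun j _ ↦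
    (integrable_finsetSum _ fun k hk ↦ hint k (mem_range.1 (mem_filter.1 hk).1)).const_mul _
  have hRint : Integrable R μ := (integrable_const _).add (integrable_finsetSum _ hjint)
  refine (integral_mono_of_nonneg (Filter.Eventually.of_forall fun ω ↦ (Real.exp_pos _).le)
    hRint (Filter.Eventually.of_forall hpoint)).trans ?_
  rw [integral_add (integrable_const _) (integrable_finsetSum _ hjint), integral_const,
    probReal_univ, one_smul, integral_finsetSum _ hjint]
  refine add_le_add le_rfl ?_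
  have hy : Real.exp (-x) < 1 := Real.exp_lt_one_iff.2 (by linarith)
  have hgap : x / 2 ≤ 1 - Real.exp (-x) := by
    have h1 : Real.exp (-x) ≤ 1 / (1 + x) := by
      rw [Real.exp_neg, one_div]
      exact inv_anti₀ (by linarith) (by linarith [Real.add_one_le_exp x])
    have h2 : x / 2 ≤ 1 - 1 / (1 + x) := by
      rw [show (1 : ℝ) - 1 / (1 + x) = x / (1 + x) by field_simp; ring,
        div_le_div_iff₀ (by norm_num) (by linarith)]
      nlinarith
    linarith
  have hsum : ∀ j ∈ Ioc 0 K, ∫ ω, Real.exp (((j : ℝ) + 1) / 2) / ((L : ℝ) * j) *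
      ∑ k ∈ (range K).filter (fun k ↦ L * j ≤ k), X k ω ∂μ ≤
        2 * C * Real.exp (1 / 2) * ρ ^ j := by
    intro j hj
    have hjpos : (0 : ℝ) < j := Nat.cast_pos.2 (mem_Ioc.1 hj).1
    have hj1 : (1 : ℝ) ≤ j := by exact_mod_cast (mem_Ioc.1 hj).1
    rw [integral_const_mul,
      integral_finsetSum _ fun k hk ↦ hint k (mem_range.1 (mem_filter.1 hk).1)]
    have htail : ∑ k ∈ (range K).filter (fun k ↦ L * j ≤ k), ∫ ω, X k ω ∂μ ≤
        C * (Real.exp (-(x * (L * j : ℕ))) / (x / 2)) := by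
      calc _ ≤ ∑ k ∈ (range K).filter (fun k ↦ L * j ≤ k), C * Real.exp (-x) ^ k := by
            refine sum_le_sum fun k hk ↦ ?_
            refine (hE k (mem_range.1 (mem_filter.1 hk).1)).trans_eq ?_
            rw [← Real.exp_nat_mul]
            ring_nf
        _ ≤ ∑ k ∈ Ico (L * j) K, C * Real.exp (-x) ^ k := by
            refine le_of_eq (sum_congr ?_ fun _ _ ↦ rfl)
            ext k
            simp [and_comm]
        _ ≤ C * (Real.exp (-x) ^ (L * j) / (1 - Real.exp (-x))) := by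
            rw [← mul_sum]
            exact mul_le_mul_of_nonneg_left
              (geom_sum_Ico_le_of_lt_one (Real.exp_pos _).le hy) hC
        _ ≤ _ := by
            refine mul_le_mul_of_nonneg_left ?_ hC
            rw [← Real.exp_nat_mul]
            refine (div_le_div_of_nonneg_left (Real.exp_pos _).le (by linarith) hgap).trans_eq ?_
            ring_nf
    refine (mul_le_mul_of_nonneg_left htail (by positivity)).trans ?_
    have hxLj : (1 : ℝ) ≤ x * L * j := le_trans hLlo (le_mul_of_one_le_right (by positivity) hj1)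
    have hexp : Real.exp (-(x * (L * j : ℕ))) ≤ Real.exp (-(j : ℝ)) := by
      refine Real.exp_le_exp.2 ?_
      have := mul_le_mul_of_nonneg_right hLlo hjpos.le
      push_cast
      linarith
    have e : Real.exp (((j : ℝ) + 1) / 2) * Real.exp (-(j : ℝ)) = Real.exp (1 / 2) * ρ ^ j := by
      rw [hρ, ← Real.exp_nat_mul, ← Real.exp_add, ← Real.exp_add]
      ring_nf
    have hLj : (0 : ℝ) < x * L * j := by positivity
    calc Real.exp (((j : ℝ) + 1) / 2) / ((L : ℝ) * j) *
          (C * (Real.exp (-(x * (L * j : ℕ))) / (x / 2)))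
        = 2 * C * (Real.exp (((j : ℝ) + 1) / 2) * Real.exp (-(x * (L * j : ℕ)))) / (x * L * j) := by
          field_simp
      _ ≤ 2 * C * (Real.exp (((j : ℝ) + 1) / 2) * Real.exp (-(x * (L * j : ℕ)))) :=
          div_le_self (by positivity) hxLj
      _ ≤ 2 * C * (Real.exp (((j : ℝ) + 1) / 2) * Real.exp (-(j : ℝ))) :=
          mul_le_mul_of_nonneg_left (mul_le_mul_of_nonneg_left hexp (Real.exp_pos _).le)
            (by positivity)
      _ = _ := by rw [e]; ring
  refine (sum_le_sum hsum).trans ?_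
  rw [← mul_sum]
  refine mul_le_mul_of_nonneg_left ?_ (by positivity)
  have hgeo := geom_sum_Ico_le_of_lt_one (m := 0) (n := K + 1) hρ0.le hρ1
  rw [pow_zero] at hgeo
  refine le_trans (sum_le_sum_of_subset_of_nonneg ?_ fun i _ _ ↦ by positivity) hgeo
  intro i hi
  simp only [mem_Ioc] at hi
  simp only [mem_Ico]
  omega

end Vale.Agent.P161.Crit
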